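import Vale.Agent.P207Z.Char.Defs
import Vale.Agent.P207Z.JetM

/-!
# P207: jets along a family (block CH-J, first part)
-/

set_option linter.all false

open Set Filter Topology Metric MeasureTheory Asymptotics
open scoped ContDiff

noncomputable section

namespace Vale.Agent.P207Z

open Vale.Agent.P207.N3 (JC)
open Lift

namespace JTx

variable {Z A A' G : Type} [TopologicalSpace Z] [NormedAddCommGroup A] [NormedSpace ℝ A]
  [NormedAddCommGroup A'] [NormedSpace ℝ A'] [NormedAddCommGroup G] [NormedSpace ℝ G]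

theorem jc_iter {f : Z → A → G} {T : Set (Z × A)} (h : JC f T) :
    ∀ i : ℕ, JC (fun z => iteratedFDeriv ℝ i (f z)) T
  | 0 => (h.clm ((continuousMultilinearCurryFin0 ℝ A G).symm.toContinuousLinearEquiv :
      G →L[ℝ] A [×0]→L[ℝ] G)).congr fun _ _ => rfl
  | i + 1 => ((jc_iter h i).fderiv.clm
      ((continuousMultilinearCurryLeftEquiv ℝ (fun _ : Fin (i + 1) => A)
        G).symm.toContinuousLinearEquiv :
        (A →L[ℝ] A [×i]→L[ℝ] G) →L[ℝ] A [×(i + 1)]→L[ℝ] G)).congr fun _ _ => rfl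

theorem jc_part {f : Z → A × A' → G} {T : Set (Z × (A × A'))} (h : JC f T) (i : ℕ) :
    JC (fun z q => iteratedFDeriv ℝ i (fun u => f z (q, u)) 0)
      {p : Z × A | (p.1, (p.2, 0)) ∈ T} := by
  have ho : IsOpen {p : Z × A | (p.1, (p.2, (0 : A'))) ∈ T} := h.isOpen.preimage (by fun_prop)
  have h1 := (jc_iter h i).comp' (JC.of_contDiff (φ := fun q : A => (q, (0 : A'))) (by fun_prop) ho)
    fun _ hp => hp
  refine (h1.clm (ContinuousMultilinearMap.compContinuousLinearMapL
    fun _ : Fin i => ContinuousLinearMap.inr ℝ A A')).congr fun p hp => ?_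
  have := iteratedFDeriv_affine (ContinuousLinearMap.inr ℝ A A') (p.2, 0)
    (Vale.Agent.P207.N3.isOpen_slice h.isOpen p.1) (m := i)
    ((h.smooth p.1).of_le (nat_le_inf i)) (a := 0) (by simpa using hp) le_rfl
  simpa using this

theorem jc_pi {ι : Type} [Fintype ι] [DecidableEq ι] {φ : ι → Type}
    [∀ i, NormedAddCommGroup (φ i)] [∀ i, NormedSpace ℝ (φ i)] {f : ∀ i, Z → A → G →L[ℝ] φ i}
    {T : Set (Z × A)} (hT : IsOpen T) (h : ∀ i, JC (f i) T) :
    JC (fun z u => ContinuousLinearMap.pi fun i => f i z u) T :=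
  (JC.sum Finset.univ hT fun i _ =>
    (JC.const hT (ContinuousLinearMap.single ℝ φ i)).clm_comp (h i)).congr fun p _ => by
      ext v j
      simp [Finset.sum_apply]

theorem pb_iter {l : A → G} {q : A} {K : ℝ} : ∀ (i : ℕ) {j : ℕ}, Pb (j + i) l q K →
    Pb j (iteratedFDeriv ℝ i l) q K
  | 0, _, h => h.clm' ((continuousMultilinearCurryFin0 ℝ A G).symm.toContinuousLinearEquiv :
      G →L[ℝ] A [×0]→L[ℝ] G) (ContinuousLinearMap.opNorm_le_bound _ zero_le_one fun v => by simp)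
  | i + 1, j, h => (pb_iter i (j := j + 1) (h.mono (by omega) le_rfl)).fderiv.clm'
      ((continuousMultilinearCurryLeftEquiv ℝ (fun _ : Fin (i + 1) => A)
        G).symm.toContinuousLinearEquiv :
        (A →L[ℝ] A [×i]→L[ℝ] G) →L[ℝ] A [×(i + 1)]→L[ℝ] G)
      (ContinuousLinearMap.opNorm_le_bound _ zero_le_one fun v => by simp)

end JTx

open JTx

variable {Γ X B E V : Type} [Group Γ] [Countable Γ] [MetricSpace X] [ProperSpace X]
  [MulAction Γ X] [IsIsometricSMul Γ X] [MeasurableSpace X] [BorelSpace X]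
  [TopologicalSpace B] [CompactSpace B] [T2Space B] [SecondCountableTopology B] [MulAction Γ B]
  [ContinuousConstSMul Γ B] [MeasurableSpace B] [BorelSpace B]
  [NormedAddCommGroup E] [InnerProductSpace ℝ E] [FiniteDimensional ℝ E]
  [NormedAddCommGroup V] [NormedSpace ℝ V] [FiniteDimensional ℝ V]
  {F : Type} [NormedAddCommGroup F] [NormedSpace ℝ F] [FiniteDimensional ℝ F]
  {S : Sys Γ X B E V} {𝔉 : Bun S F} {Y : Type} [MeasurableSpace Y] [MulAction Γ Y]

/-- jets along a family (`jc_jetL` without the finite dimension of `V₁`) -/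
theorem jc_jetL' {Z V₁ V₂ V₃ W W' : Type} [TopologicalSpace Z] [NormedAddCommGroup V₁]
    [NormedSpace ℝ V₁] [NormedAddCommGroup V₂] [NormedSpace ℝ V₂] [NormedAddCommGroup V₃]
    [NormedSpace ℝ V₃] [NormedAddCommGroup W] [NormedSpace ℝ W] [NormedAddCommGroup W']
    [NormedSpace ℝ W'] [FiniteDimensional ℝ V₂] [FiniteDimensional ℝ V₃] [FiniteDimensional ℝ W]
    [FiniteDimensional ℝ W'] {θ : Z → V₁ × V₂ → V₃} {L : Z → V₁ × V₂ → W →L[ℝ] W'}
    {T : Set (Z × (V₁ × V₂))} (hθ : JC θ T) (hL : JC L T) (k : ℕ) :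
    JC (fun z q => jetL k (fun h => θ z (q, h)) fun h => L z (q, h))
      {p : Z × V₁ | (p.1, (p.2, 0)) ∈ T} := by
  have h1 := hL.clm_comp (hθ.comp_contDiff (contDiff_polyL (k := k) (W := W)))
  exact jc_pi (h1.isOpen.preimage (by fun_prop)) fun i => (jc_part h1 i).clm
    ((ContinuousLinearMap.flipMultilinearEquiv ℝ (fun _ : Fin i => V₂) (Jet k V₃ W)
      W').symm : (V₂ [×(i : ℕ)]→L[ℝ] Jet k V₃ W →L[ℝ] W') →L[ℝ]
        Jet k V₃ W →L[ℝ] V₂ [×(i : ℕ)]→L[ℝ] W')

theorem JL_apply {G : Type} [NormedAddCommGroup G] [NormedSpace ℝ G] (D : ℕ) (q : V)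
    (a : Jet D V G) : JL D V G q a = jet D (poly a) q := by
  rw [JL, jetL_apply (by fun_prop) contDiffAt_const, ← jet_translate (poly a) q]
  rfl
theorem contDiff_JL {G : Type} [NormedAddCommGroup G] [NormedSpace ℝ G] [FiniteDimensional ℝ G]
    (D : ℕ) : ContDiff ℝ ∞ (JL D V G) :=
  contDiffOn_univ.1 ((jc_jetL (Z := Unit) (T := univ)
    (JC.of_contDiff (φ := fun p : V × V => p.1 + p.2) (by fun_prop) isOpen_univ)
    (JC.const isOpen_univ (ContinuousLinearMap.id ℝ G)) D).smooth ())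
/-- the jet of a smooth map, as a function of the point -/
theorem pb_jet {G : Type} [NormedAddCommGroup G] [NormedSpace ℝ G] {j L : ℕ} {l : V → G} {q : V}
    {K : ℝ} (h : Pb (j + L) l q K) : Pb j (jet L l) q ((L + 1) * K) := by
  have h1 := Pb.sum Finset.univ (K := fun _ : Fin (L + 1) => K) fun i _ =>
    (pb_iter i (h.mono (i := j + i) (by have := i.is_le; omega) le_rfl)).clm'
      (ContinuousLinearMap.single ℝ (fun i : Fin (L + 1) => V [×(i : ℕ)]→L[ℝ] G) i)
      (ContinuousLinearMap.opNorm_le_bound _ zero_le_one fun v => by simp [Pi.norm_single])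
  refine (h1.congr (Eventually.of_forall fun z => ?_)).le (by simp)
  exact (Finset.univ_sum_single (jet L l z)).symm
theorem van_jet {G : Type} [NormedAddCommGroup G] [NormedSpace ℝ G] {N L : ℕ} {l : V → G} {q : V}
    (hl : ContDiffAt ℝ ∞ l q) (h : Van (N + L) l q) : Van N (jet L l) q := by
  cases N with
  | zero => exact van_zero
  | succ N =>
    have h1 := pb_jet ((van_iff (N := N + L) hl).1 (h.mono (by omega)))
    rw [mul_zero] at h1
    exact (van_iff h1.sm).2 h1
theorem van_iff_jet {G : Type} [NormedAddCommGroup G] [NormedSpace ℝ G] {N : ℕ} {l : V → G}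
    {q : V} : Van (N + 1) l q ↔ jet N l q = 0 := by
  simp only [jet_eq_zero_iff, Van, Nat.lt_succ_iff]
theorem pb_ball {V' G : Type} [NormedAddCommGroup V'] [NormedSpace ℝ V'] [FiniteDimensional ℝ V']
    [NormedAddCommGroup G] [NormedSpace ℝ G] {f : V' → G} (hf : ContDiff ℝ ∞ f) (R : ℝ) (j : ℕ) :
    ∃ C, 1 ≤ C ∧ ∀ q : V', ‖q‖ ≤ R → Pb j f q C := by
  obtain ⟨M, -, hM⟩ := Sys.exists_bound_le (f := fun i => iteratedFDeriv ℝ i f)
    (isCompact_closedBall (0 : V') R)
    (fun i => (hf.continuous_iteratedFDeriv (nat_le_inf i)).continuousOn) j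
  exact ⟨max 1 M, le_max_left _ _, fun q hq => ⟨hf.contDiffAt, fun i hi =>
    (hM q (mem_closedBall_zero_iff.2 hq) i hi).trans (le_max_right _ _)⟩⟩

end Vale.Agent.P207Z
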