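import Vale.Agent.P207Z.Char.JT.A

/-!
# P207: transport of jets (block CH-J, second part)
-/

set_option linter.all false

open Set Filter Topology Metric MeasureTheory Asymptotics
open scoped ContDiff

noncomputable section

namespace Vale.Agent.P207Z

open Vale.Agent.P207.N3 (JC)
open Lift

variable {Γ X B E V : Type} [Group Γ] [Countable Γ] [MetricSpace X] [ProperSpace X]
  [MulAction Γ X] [IsIsometricSMul Γ X] [MeasurableSpace X] [BorelSpace X]
  [TopologicalSpace B] [CompactSpace B] [T2Space B] [SecondCountableTopology B] [MulAction Γ B]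
  [ContinuousConstSMul Γ B] [MeasurableSpace B] [BorelSpace B]
  [NormedAddCommGroup E] [InnerProductSpace ℝ E] [FiniteDimensional ℝ E]
  [NormedAddCommGroup V] [NormedSpace ℝ V] [FiniteDimensional ℝ V]
  {F : Type} [NormedAddCommGroup F] [NormedSpace ℝ F] [FiniteDimensional ℝ F]
  {S : Sys Γ X B E V} {𝔉 : Bun S F} {Y : Type} [MeasurableSpace Y] [MulAction Γ Y]

namespace JTx

variable {x y : X} {q : V}

theorem shift {W : Type} [NormedAddCommGroup W] [NormedSpace ℝ W] {f : V → W}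
    (h : ContDiffAt ℝ ∞ f q) (n : ℕ) : ContDiffAt ℝ n (fun u => f (q + u)) 0 :=
  ContDiffAt.comp (g := f) (f := fun u => q + u) 0 (by simpa using cda h n) (by fun_prop)

theorem sm_θ (h : q ∈ S.dom x y) (n : ℕ) :
    ContDiffAt ℝ n (fun u => S.τ x y (q + u) - S.τ x y q) 0 :=
  (shift (Sys.contDiffAt_τ h) n).sub contDiffAt_const

/-- the transposition -/
def flp (F : Type) [NormedAddCommGroup F] [NormedSpace ℝ F] : (F →L[ℝ] F) →L[ℝ] Du F →L[ℝ] Du F :=
  (ContinuousLinearMap.compL ℝ F F ℝ).flip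

theorem sm_A (𝔉 : Bun S F) (h : q ∈ S.dom x y) (n : ℕ) : ContDiffAt ℝ n
    (fun u => (ContinuousLinearMap.compL ℝ F F ℝ).flip (𝔉.A x y (q + u))) 0 := by
  have h1 : ContDiff ℝ n (flp F) :=
    ContinuousLinearMap.contDiff (𝕜 := ℝ) (E := F →L[ℝ] F) (F := Du F →L[ℝ] Du F) (flp F)
  exact h1.contDiffAt.comp 0 (shift (𝔉.contDiffAt h) n)

theorem sm_poly {G : Type} [NormedAddCommGroup G] [NormedSpace ℝ G] {L : ℕ} (a : Jet L V G)
    (c v : V) : ContDiffAt ℝ ∞ (fun v => poly a (v - c)) v :=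
  ((contDiff_poly a).comp (contDiff_id.sub contDiff_const)).contDiffAt

theorem jc_add {W : Type} [NormedAddCommGroup W] [NormedSpace ℝ W] {f : X × X → V → W}
    (hf : JC f S.Dm) {g : V × V → V} (hg : ContDiff ℝ ∞ g) {T : Set ((X × X) × (V × V))}
    (hT : IsOpen T) (h : ∀ p ∈ T, (p.1, g p.2) ∈ S.Dm) : JC (fun z p => f z (g p)) T :=
  hf.comp' (JC.of_contDiff hg hT) h

end JTx

open JTx

namespace Bun

variable (𝔉) {x y z : X} {q : V} (L : ℕ)

theorem contDiffAt_pull {G : Type} [NormedAddCommGroup G] [NormedSpace ℝ G] {l : V → F →L[ℝ] G}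
    (h : q ∈ S.dom x y) (hl : ContDiffAt ℝ ∞ l (S.τ x y q)) :
    ContDiffAt ℝ ∞ (𝔉.pull x y l) q :=
  (hl.comp q (Sys.contDiffAt_τ h)).clm_comp (𝔉.contDiffAt h)
theorem JT_jet {l : V → Du F} (h : q ∈ S.dom x y) (hl : ContDiffAt ℝ ∞ l (S.τ x y q)) :
    𝔉.JT L x y q (jet L l (S.τ x y q)) = jet L (𝔉.pull x y l) q := by
  rw [← jet_translate l, JT, jetL_jet (sm_θ h L) (sm_A 𝔉 h L) (by simp) (shift hl L),
    ← jet_translate (𝔉.pull x y l)]
  simp only [add_sub_cancel]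
  rfl
theorem JT_apply (h : q ∈ S.dom x y) (a : Jet L V (Du F)) :
    𝔉.JT L x y q a = jet L (𝔉.pull x y fun v => poly a (v - S.τ x y q)) q := by
  rw [JT, jetL_apply (sm_θ h L) (sm_A 𝔉 h L), ← jet_translate _ q]
  rfl
theorem JT_coc (h : q ∈ S.dom x y) (h' : q ∈ S.dom x z) :
    𝔉.JT L x y q * 𝔉.JT L y z (S.τ x y q) = 𝔉.JT L x z q := by
  refine ContinuousLinearMap.ext fun a => ?_
  have h1 := Sys.τ_dom' h h'
  rw [ContinuousLinearMap.mul_apply, JT_apply _ _ h1,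
    JT_jet _ _ h (𝔉.contDiffAt_pull h1 (sm_poly _ _ _)), JT_apply _ _ h', Sys.τ_trans h h']
  refine jet_congr ?_
  filter_upwards [Sys.dom_nhds h, Sys.dom_nhds h'] with v hv hv'
  simp only [pull]
  rw [Sys.τ_trans hv hv', ← 𝔉.coc x y z v hv hv']
  rfl
theorem JT_self (hq : q ∈ ball (0 : V) 1) (a : Jet L V (Du F)) :
    𝔉.JT L x x q a = jet L (poly a) 0 := by
  rw [JT_apply _ _ (Sys.dom_self hq), Sys.τ_self hq,
    jet_congr (g := fun v => poly a (v - q)), ← jet_translate]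
  · simp only [add_sub_cancel_left]
  · filter_upwards [isOpen_ball.mem_nhds hq] with v hv
    simp only [pull]
    rw [Sys.τ_self hv, 𝔉.self x v hv]
    rfl
theorem JT_trunc {K : ℕ} (hK : K ≤ L) (h : q ∈ S.dom x y) (a : Jet L V (Du F)) :
    trunc hK (𝔉.JT L x y q a) = 𝔉.JT K x y q (trunc hK a) :=
  trunc_jetL hK (sm_θ h L) (sm_A 𝔉 h L) (by simp) a
theorem JT_smul (g : Γ) (h : q ∈ S.dom x y) : 𝔉.JT L (g • x) (g • y) q = 𝔉.JT L x y q := by
  refine ContinuousLinearMap.ext fun a => ?_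
  have h' : q ∈ S.dom (g • x) (g • y) := by rwa [Sys.dom_smul]
  rw [JT_apply _ _ h, JT_apply _ _ h', Sys.τ_smul g h]
  refine jet_congr ?_
  filter_upwards [Sys.dom_nhds h] with v hv
  simp only [pull]
  rw [Sys.τ_smul g hv, 𝔉.smul g x y v hv]
theorem jc_JT : JC (fun (p : X × X) q => 𝔉.JT L p.1 p.2 q) S.Dm := by
  have hT : IsOpen {p : (X × X) × (V × V) | (p.1, p.2.1 + p.2.2) ∈ S.Dm ∧ (p.1, p.2.1) ∈ S.Dm} :=
    (Sys.isOpen_Dm.preimage (f := fun p : (X × X) × (V × V) => (p.1, p.2.1 + p.2.2))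
      (by fun_prop)).inter
      (Sys.isOpen_Dm.preimage (f := fun p : (X × X) × (V × V) => (p.1, p.2.1)) (by fun_prop))
  have h1 := jc_add Sys.jc_τ (g := fun p => p.1 + p.2) (by fun_prop) hT fun _ hp => hp.1
  have h2 := jc_add Sys.jc_τ (g := fun p => p.1) (by fun_prop) hT fun _ hp => hp.2
  have h3 := jc_add 𝔉.jc (g := fun p => p.1 + p.2) (by fun_prop) hT fun _ hp => hp.1
  have h4 := h3.clm (G := Du F →L[ℝ] Du F) (flp F)
  exact (jc_jetL (h1.sub h2) h4 L).mono Sys.isOpen_Dm fun p hp => ⟨by simpa using hp, hp⟩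
theorem jc_JT' : JC (fun (p : X × X) q => 𝔉.JT L p.2 p.1 (S.τ p.1 p.2 q)) S.Dm :=
  Sys.jc_swap (f := fun x y q => 𝔉.JT L x y q) (𝔉.jc_JT L)

/-- the cocycle of the jets at the centres -/
def jc0 : Coc0 S (Jet L V (Du F)) where
  Φ x y := 𝔉.JT L y x 0
  cont := (𝔉.jc_JT L).continuousOn.comp (f := fun p : X × X => ((p.2, p.1), (0 : V)))
    (by fun_prop) fun _ hp => Sys.zero_dom (Eq.symm hp)
  coc := fun x y z h h' => by
    have h1 : S.pt z = S.pt y := h'.symm.trans h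
    have h2 := 𝔉.JT_coc L (Sys.zero_dom h1) (Sys.zero_dom h'.symm)
    rwa [Sys.τ_zero h1] at h2
  smul := fun g x y h => 𝔉.JT_smul L g (Sys.zero_dom h.symm)

end Bun

end Vale.Agent.P207Z
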